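import Vale.Agent.P181.RG.Defs

set_option autoImplicit false

/-!
# P181, RG: [NUM] the final inequality (helper201)
-/

namespace Vale.Agent.P181.RG.H201

/-- The choice and the factorial. -/
theorem choose_fact (t u : ℕ) (hu : 0 < u) :
    (t + u - 1).choose (u - 1) * u.factorial ≤ (t + u) ^ u := by
  obtain ⟨v, rfl⟩ : ∃ v, u = v + 1 := ⟨u - 1, by omega⟩
  have e1 : t + (v + 1) - 1 = t + v := by omega
  have e2 : v + 1 - 1 = v := by omega
  rw [e1, e2, Nat.factorial_succ, pow_succ]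
  have h1 : (t + v).choose v * ((v + 1) * v.factorial) = (t + v).descFactorial v * (v + 1) := by
    rw [Nat.descFactorial_eq_factorial_mul_choose]
    ring
  rw [h1]
  refine Nat.mul_le_mul ?_ (by omega)
  exact (Nat.descFactorial_le_pow _ _).trans (Nat.pow_le_pow_left (by omega) _)

/-- The powers of `a`, `X`. -/
theorem base (a X : ℝ) (hX : 2 ≤ X) (ha : X ^ 40 ≤ a) :
    2 ≤ a / (2 * X ^ 2) ∧ 2 ^ 3 * (2 * X * a ^ 2) ^ 19 ≤ (a / (2 * X ^ 2)) ^ 54 := by
  have hX0 : 0 < X := by linarith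
  have ha0 : 0 < a := lt_of_lt_of_le (by positivity) ha
  constructor
  · rw [le_div_iff₀ (by positivity)]
    calc 2 * (2 * X ^ 2) = 2 * 2 * X ^ 2 := by ring
      _ ≤ X * X * X ^ 2 := by gcongr
      _ = X ^ 4 := by ring
      _ ≤ X ^ 40 := pow_le_pow_right₀ (by linarith) (by norm_num)
      _ ≤ a := ha
  · have e2 : (2 : ℝ) ^ 76 * X ^ 127 ≤ a ^ 16 := by
      calc (2 : ℝ) ^ 76 * X ^ 127 ≤ X ^ 76 * X ^ 127 := by gcongr
        _ = X ^ 203 := by rw [← pow_add]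
        _ ≤ X ^ 640 := pow_le_pow_right₀ (by linarith) (by norm_num)
        _ = (X ^ 40) ^ 16 := by rw [← pow_mul]
        _ ≤ a ^ 16 := by gcongr
    rw [div_pow, le_div_iff₀ (by positivity)]
    calc (2 : ℝ) ^ 3 * (2 * X * a ^ 2) ^ 19 * (2 * X ^ 2) ^ 54
        = (2 ^ 76 * X ^ 127) * a ^ 38 := by
          simp only [mul_pow, ← pow_mul]
          ring
      _ ≤ a ^ 16 * a ^ 38 := by gcongr
      _ = a ^ 54 := by rw [← pow_add]

/-- **[NUM]** -/
theorem numRG : NumRG := by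
  refine ⟨0, fun a b X m u t y _ hX hXa hb hm hu hub ht hy => ?_⟩
  have hX0 : 0 < X := by omega
  have ha0 : 0 < a := lt_of_lt_of_le (by positivity) hXa
  have hu0 : 0 < u := by omega
  obtain ⟨hQ2, hQ⟩ := base (a : ℝ) (X : ℝ) (by exact_mod_cast hX) (by exact_mod_cast hXa)
  obtain ⟨Q, hQd⟩ : ∃ Q : ℝ, Q = (a : ℝ) / (2 * (X : ℝ) ^ 2) := ⟨_, rfl⟩
  rw [← hQd] at hQ2 hQ
  have har : (0 : ℝ) < a := by exact_mod_cast ha0
  have hXr : (0 : ℝ) < X := by exact_mod_cast hX0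
  have hur : (0 : ℝ) < u := by exact_mod_cast hu0
  have hQu : Q * u ≤ y := by
    have h1 : (u : ℝ) ≤ X * a := by exact_mod_cast hub.trans hb
    have h2 : (a : ℝ) ^ 2 ≤ 2 * X * y := by exact_mod_cast hy
    calc Q * u ≤ Q * (X * a) := by gcongr
      _ = (a : ℝ) ^ 2 / (2 * X) := by rw [hQd]; field_simp
      _ ≤ y := by
          rw [div_le_iff₀ (by positivity)]
          linarith
  have h1 : Q ≤ 1 + (y : ℝ) / u := by
    have h2 : Q ≤ (y : ℝ) / u := by
      rw [le_div_iff₀ hur]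
      exact hQu
    linarith
  have htu : ((t + u : ℕ) : ℝ) ≤ 2 * X * (a : ℝ) ^ 2 := by
    have h2 : t + u ≤ 2 * X * a ^ 2 := by
      have h3 : a * b ≤ a * (X * a) := Nat.mul_le_mul_left _ hb
      have h4 : X * a ≤ X * a * a := Nat.le_mul_of_pos_right _ ha0
      calc t + u ≤ a * (X * a) + X * a * a := by omega
        _ = 2 * X * a ^ 2 := by ring
    exact_mod_cast h2
  have hbase : (2 : ℝ) ^ m * (2 * X * (a : ℝ) ^ 2) ^ 19 ≤ Q ^ (18 * m) := by
    obtain ⟨m', rfl⟩ : ∃ m', m = 3 + m' := ⟨m - 3, by omega⟩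
    calc (2 : ℝ) ^ (3 + m') * (2 * X * (a : ℝ) ^ 2) ^ 19
        = 2 ^ m' * (2 ^ 3 * (2 * X * (a : ℝ) ^ 2) ^ 19) := by rw [pow_add]; ring
      _ ≤ (Q ^ 18) ^ m' * Q ^ 54 := by
          refine mul_le_mul (pow_le_pow_left₀ (by norm_num) ?_ _) hQ (by positivity)
            (by positivity)
          calc (2 : ℝ) ≤ Q := hQ2
            _ ≤ Q ^ 18 := le_self_pow₀ (by linarith) (by norm_num)
      _ = Q ^ (18 * (3 + m')) := by
          rw [← pow_mul, ← pow_add]
          congr 1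
          ring
  have key : (2 : ℝ) ^ (m * a) * (2 * X * (a : ℝ) ^ 2) ^ u ≤ Q ^ (m * (u - a)) := by
    refine le_of_pow_le_pow_left₀ (n := 19) (by norm_num) (by positivity) ?_
    have hQ0 : 0 < Q := by linarith
    calc ((2 : ℝ) ^ (m * a) * (2 * X * (a : ℝ) ^ 2) ^ u) ^ 19
        = 2 ^ (m * (19 * a)) * ((2 * X * (a : ℝ) ^ 2) ^ 19) ^ u := by
          rw [mul_pow, ← pow_mul, ← pow_mul, ← pow_mul]
          congr 2 <;> ring
      _ ≤ 2 ^ (m * u) * ((2 * X * (a : ℝ) ^ 2) ^ 19) ^ u := by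
          gcongr
          norm_num
      _ = (2 ^ m * (2 * X * (a : ℝ) ^ 2) ^ 19) ^ u := by
          rw [pow_mul]
          exact (mul_pow _ _ _).symm
      _ ≤ (Q ^ (18 * m)) ^ u := by gcongr
      _ = Q ^ (m * (18 * u)) := by
          rw [← pow_mul]
          congr 1
          ring
      _ ≤ Q ^ (m * (19 * (u - a))) := by
          refine pow_le_pow_right₀ (by linarith) (Nat.mul_le_mul_left _ (by omega))
      _ = (Q ^ (m * (u - a))) ^ 19 := by
          rw [← pow_mul]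
          congr 1
          ring
  calc 2 ^ (m * a) * ((t + u - 1).choose (u - 1) : ℝ) * (u.factorial : ℝ)
      = 2 ^ (m * a) * (((t + u - 1).choose (u - 1) * u.factorial : ℕ) : ℝ) := by
        push_cast
        ring
    _ ≤ 2 ^ (m * a) * (((t + u) ^ u : ℕ) : ℝ) := by
        gcongr
        exact choose_fact t u hu0
    _ ≤ 2 ^ (m * a) * (2 * X * (a : ℝ) ^ 2) ^ u := by
        have h5 : (((t + u) ^ u : ℕ) : ℝ) = ((t + u : ℕ) : ℝ) ^ u := by push_cast; rfl
        rw [h5]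
        gcongr
    _ ≤ Q ^ (m * (u - a)) := key
    _ ≤ (1 + (y : ℝ) / u) ^ (m * (u - a)) := by
        have hQ0 : 0 ≤ Q := by linarith
        gcongr

end Vale.Agent.P181.RG.H201
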